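import Vale.Agent.P011LE.IF
import Vale.Agent.P011LI.Ext

/-! The subgroup of type `A₅ × A₁` and descent data with values in it. -/

set_option linter.all false

open Matrix
open scoped Kronecker

noncomputable section

namespace Vale.Agent.P011LF

open P011L P011LD P011LE P011LI

variable {k K : Type} [Field k] [Field K] [Algebra k K] {n : Type} [Fintype n] [DecidableEq n]
  {o : (K ≃ₐ[k] K) →* ℤˣ} {σ τ : K ≃ₐ[k] K}

omit [Algebra k K] in
theorem sc_of [Nonempty n] {g g' : GL n K} {z : K} (h : g.1 = z • g'.1) :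
    ∃ u : Kˣ, u.1 = z ∧ g = sc n u * g' := by
  have h0 : z ≠ 0 := fun e => g.ne_zero (by rw [h, e, zero_smul])
  exact ⟨Units.mk0 z h0, rfl, Units.ext (by rw [sc_mul, h]; rfl)⟩

omit [Algebra k K] in
theorem sc_of2 {m : Type} [Fintype m] [DecidableEq m] [Nonempty n] [Nonempty m] {g g' : GL n K}
    {d d' : GL m K} (h : ∃ z : K, g.1 = z • g'.1 ∧ d.1 = z • d'.1) :
    ∃ u : Kˣ, g = sc n u * g' ∧ d = sc m u * d' := by
  obtain ⟨z, h1, h2⟩ := h
  obtain ⟨u, a, b⟩ := sc_of h1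
  obtain ⟨v, a', b'⟩ := sc_of h2
  exact ⟨u, b, by rw [b', Units.ext (a'.trans a.symm)]⟩

omit [Algebra k K] in
theorem det_ne (g : GL n K) : g.1.det ≠ 0 := Units.ne_zero (GeneralLinearGroup.det g)

omit [Algebra k K] in
theorem det_sc (x : Kˣ) : GeneralLinearGroup.det (sc n x) = x ^ Fintype.card n := Units.ext (by
  change (sc n x).1.det = _
  simp)

omit [Algebra k K] in
theorem it_sc (x : Kˣ) : it (sc n x) = sc n x⁻¹ := Units.ext (by
  change (sc n x)⁻¹.1ᵀ = _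
  rw [← map_inv, sc_val, transpose_smul, transpose_one])

omit [Algebra k K] in
theorem det_it (g : GL n K) : GeneralLinearGroup.det (it g) = (GeneralLinearGroup.det g)⁻¹ :=
  Units.ext (by
    change g⁻¹.1ᵀ.det = _
    rw [det_transpose, ← map_inv]
    rfl)

theorem st_it (g : GL n K) : st o σ (it g) = it (st o σ g) := by
  unfold st
  split_ifs <;> exact Units.ext rfl

omit [Algebra k K] in
theorem kr_mul (d d' : GL (Fin 3) K) (h h' : GL (Fin 2) K) :
    kr (d * d') (h * h') = kr d h * kr d' h' := Units.ext (mul_kronecker_mul _ _ _ _)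

omit [Algebra k K] in
theorem kr_sc (x y : Kˣ) : kr (sc _ x) (sc _ y) = sc S (x * y) := Units.ext (by
  change (sc _ x).1 ⊗ₖ (sc _ y).1 = _
  rw [sc_val, sc_val, sc_val, smul_kronecker, kronecker_smul, one_kronecker_one, smul_smul,
    Units.val_mul])

theorem st_kr (d : GL (Fin 3) K) (h : GL (Fin 2) K) :
    st o σ (kr d h) = kr (st o σ d) (st o σ h) := by
  unfold st
  split_ifs
  · exact Units.ext (Matrix.ext fun _ _ => map_mul σ _ _)
  · exact Units.ext (Matrix.ext fun _ _ => map_mul σ _ _)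

omit [Algebra k K] in
theorem det_kr (d : GL (Fin 3) K) (h : GL (Fin 2) K) : GeneralLinearGroup.det (kr d h) =
    GeneralLinearGroup.det d ^ 2 * GeneralLinearGroup.det h ^ 3 := Units.ext (by
  rw [Units.val_mul, Units.val_pow_eq_pow_val, Units.val_pow_eq_pow_val,
    GeneralLinearGroup.val_det_apply, GeneralLinearGroup.val_det_apply,
    GeneralLinearGroup.val_det_apply]
  exact (det_kronecker d.1 h.1).trans (by rw [Fintype.card_fin, Fintype.card_fin]))

theorem hq_mul {α : K} {b : Kˣ} (h2 : (2 : K) ≠ 0) (h0 : α ≠ 0)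
    (ha : ∀ σ : K ≃ₐ[k] K, σ (α ^ 2) = α ^ 2) (hb : ∀ σ : K ≃ₐ[k] K, σ b = b)
    (σ τ : K ≃ₐ[k] K) : ∃ z : Kˣ, hq o α b σ * st o σ (hq o α b τ) = sc _ z * hq o α b (σ * τ) := by
  classical
  have e0 : ∀ σ : K ≃ₐ[k] K, σ α = α ∨ σ α = -α := fun σ =>
    sq_eq_sq_iff_eq_or_eq_neg.1 ((map_pow σ α 2).symm.trans (ha σ))
  have e1 : -α ≠ α := fun e => h0 (by
    have : 2 * α = 0 := by linear_combination -e
    exact (mul_eq_zero.1 this).resolve_left h2)
  have m1 : ∀ x : GL (Fin 2) K, ∃ c : Kˣ, (if o σ = 1 then 1 else wq) * st o σ x =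
      sc _ c * GeneralLinearGroup.map (σ : K →+* K) x * (if o σ = 1 then 1 else wq) := fun x => by
    unfold st
    split_ifs
    · exact ⟨1, by simp⟩
    · generalize hy : GeneralLinearGroup.map (σ : K →+* K) x = y
      refine ⟨(GeneralLinearGroup.det y)⁻¹, ?_⟩
      rw [MonoidHom.comp_apply, hy, map_inv, mul_assoc, eq_inv_mul_iff_mul_eq, ← mul_assoc,
        ← eq_mul_inv_iff_mul_eq, ← map_inv]
      refine Units.ext ?_
      change (sc _ _ * wq).1 = y.1 * wq.1 * y.1ᵀ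
      rw [sc_mul, GeneralLinearGroup.val_det_apply, det_fin_two]
      ext i j
      fin_cases i <;> fin_cases j <;> simp [wq, mul_apply, Fin.sum_univ_two] <;> ring
  have m2 : GeneralLinearGroup.map (σ : K →+* K) (hq o α b τ) = hq o α b τ := by
    have f1 : GeneralLinearGroup.map (σ : K →+* K) (jq b) = jq b := Units.ext (by
      ext i j
      fin_cases i <;> fin_cases j <;> simp [jq, hb])
    have f2 : GeneralLinearGroup.map (σ : K →+* K) wq = wq := Units.ext (by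
      ext i j
      fin_cases i <;> fin_cases j <;> simp [wq])
    unfold hq
    split_ifs <;> simp only [map_mul, map_one, f1, f2]
  have m3 : ∃ c : Kˣ, (if σ α = α then 1 else jq b) * (if τ α = α then 1 else jq b) =
      sc _ c * if (σ * τ) α = α then 1 else jq b := by
    have f : jq b * jq b = sc _ b := Units.ext (by
      rw [sc_val]
      ext i j
      fin_cases i <;> fin_cases j <;> simp [jq, mul_apply, Fin.sum_univ_two])
    rw [AlgEquiv.mul_apply]
    rcases e0 σ with e | e <;> rcases e0 τ with e' | e'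
    · exact ⟨1, by simp [e, e']⟩
    · exact ⟨1, by simp [e, e', e1]⟩
    · exact ⟨1, by simp [e, e', e1]⟩
    · exact ⟨b, by simp [e, e', e1, f]⟩
  have m4 : ∃ c : Kˣ, (if o τ = 1 then 1 else wq) * (if o σ = 1 then 1 else wq) =
      sc _ c * if o (σ * τ) = 1 then (1 : GL (Fin 2) K) else wq := by
    have f : (wq : GL (Fin 2) K) * wq = sc _ (-1) := Units.ext (by
      rw [sc_val]
      ext i j
      fin_cases i <;> fin_cases j <;> simp [wq, mul_apply, Fin.sum_univ_two])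
    rw [map_mul]
    rcases Int.units_eq_one_or (o σ) with e | e <;> rcases Int.units_eq_one_or (o τ) with e' | e'
    · exact ⟨1, by simp [e, e']⟩
    · exact ⟨1, by simp [e, e']⟩
    · exact ⟨1, by simp [e, e']⟩
    · exact ⟨-1, by simp [e, e', f]⟩
  obtain ⟨c1, h1⟩ := m1 (hq o α b τ)
  obtain ⟨c3, h3⟩ := m3
  obtain ⟨c4, h4⟩ := m4
  refine ⟨c1 * c3 * c4, ?_⟩
  rw [m2] at h1
  conv_lhs => rw [hq, mul_assoc, h1, hq]
  rw [hq]
  generalize (if σ α = α then 1 else jq b) = A at *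
  generalize (if τ α = α then 1 else jq b) = B at *
  generalize (if (σ * τ) α = α then 1 else jq b) = C at *
  generalize (if o σ = 1 then (1 : GL (Fin 2) K) else wq) = A' at *
  generalize (if o τ = 1 then (1 : GL (Fin 2) K) else wq) = B' at *
  generalize (if o (σ * τ) = 1 then (1 : GL (Fin 2) K) else wq) = C' at *
  calc _ = sc _ c1 * (A * B) * (B' * A') := by rw [← mul_assoc, ← mul_assoc, mul_sc]; group
    _ = sc _ c1 * sc _ c3 * (C * sc _ c4) * C' := by rw [h3, h4]; group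
    _ = _ := by rw [mul_sc c4, map_mul, map_mul]; group

variable [CharZero K]

/-- The homomorphism to the group of the matrices of degree twenty seven. -/
def ii (g : GL S K) (h : GL (Fin 2) K) (l : Kˣ) : GL I K :=
  ⟨E.symm (io g h.1 l), E.symm (io g⁻¹ h⁻¹.1 l⁻¹.1),
    by rw [← map_mul, io_mul, mul_inv_cancel, Units.mul_inv, Units.mul_inv, io_one, map_one],
    by rw [← map_mul, io_mul, inv_mul_cancel, Units.inv_mul, Units.inv_mul, io_one, map_one]⟩

omit [Algebra k K] in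
theorem E_ii (g : GL S K) (h : GL (Fin 2) K) (l : Kˣ) : E (ii g h l).1 = io g h.1 l :=
  E.apply_symm_apply _

omit [Algebra k K] in
theorem ii_eq {P : GL I K} {g : GL S K} {h : GL (Fin 2) K} {l : Kˣ} (e : E P.1 = io g h.1 l) :
    P = ii g h l := Units.ext (E.injective (e.trans (E_ii g h l).symm))

omit [Algebra k K] in
theorem ii_mul (g g' : GL S K) (h h' : GL (Fin 2) K) (l l' : Kˣ) :
    ii g h l * ii g' h' l' = ii (g * g') (h * h') (l * l') :=
  ii_eq (by rw [Units.val_mul, map_mul, E_ii, E_ii, io_mul]; rfl)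

omit [Algebra k K] in
theorem ii_inv (g : GL S K) (h : GL (Fin 2) K) (l : Kˣ) : (ii g h l)⁻¹ = ii g⁻¹ h⁻¹ l⁻¹ :=
  Units.ext rfl

theorem st_ii (g : GL S K) (h : GL (Fin 2) K) (l : Kˣ) :
    st o σ (ii g h l) = ii (st o σ g) (st o σ h) (aK o σ l) := ii_eq (by
  by_cases e : o σ = 1
  · rw [st_in o e, st_in o e, aK_in o e, st, if_pos e]
    exact (cj_E (σ : K →+* K) _).symm.trans ((congrArg _ (E_ii g h l)).trans (cj_io _ g h.1 l))
  · rw [st_out o e, st_out o e, aK_out o e, st, if_neg e, ← tp_E, ii_inv]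
    refine (congrArg tp ((cj_E (σ : K →+* K) _).symm.trans ((congrArg _ (E_ii _ _ _)).trans
      (cj_io _ g⁻¹ h⁻¹.1 l⁻¹.1)))).trans ?_
    rw [tp_io, map_inv, map_inv, inv_inv, Units.val_inv_eq_inv_val, map_inv₀]
    rfl)

omit [Algebra k K] in
theorem io_sc (c : Kˣ) (g : GL S K) (h : Matrix (Fin 2) (Fin 2) K) (l : K) :
    io (sc S c * g) h (c.1 ^ 2 * l) = io g (c.1 • h) l := by
  refine LinearMap.ext fun y => J_ext ?_ ?_
  · rw [io_1, io_1, mul_sc_inv c g]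
    simp only [transpose_smul, Matrix.smul_mul, Matrix.mul_smul, smul_smul]
    congr 1
    field_simp
  · rw [io_2, io_2, sc_mul]
    simp only [transpose_smul, Matrix.smul_mul, Matrix.mul_smul]
where
  mul_sc_inv (c : Kˣ) (g : GL S K) : (sc S c * g)⁻¹.1 = c.1⁻¹ • g⁻¹.1 := by
    rw [_root_.mul_inv_rev, ← map_inv, mul_sc, sc_mul, Units.val_inv_eq_inv_val]

omit [Algebra k K] in
theorem ii_sc2 (c : Kˣ) (g : GL S K) (h : GL (Fin 2) K) (l : Kˣ) :
    ii g (sc _ c * h) l = ii (sc S c * g) h (c ^ 2 * l) :=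
  ii_eq (by rw [E_ii, sc_mul, ← io_sc]; rfl)

omit [Algebra k K] in
theorem sc_ii (c : Kˣ) (g : GL S K) (h : GL (Fin 2) K) (l : Kˣ) :
    sc I c * ii g h l = ii (sc S c * g) h (c ^ 3 * l) :=
  ii_eq (by
    rw [sc_mul, map_smul, E_ii, io_smul, ← io_sc, ← mul_assoc, ← pow_succ]
    rfl)

omit [Algebra k K] in
theorem ii_inj {g g' : GL S K} {h : GL (Fin 2) K} {l l' : Kˣ} (e : ii g h l = ii g' h l') :
    g = g' ∧ l = l' := by
  have e1 : ∀ y, io g h.1 l y = io g' h.1 l' y := fun y => by rw [← E_ii, ← E_ii, e]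
  have e2 : g = g' := Units.ext (transpose_injective (Matrix.ext fun i j => by
    have := congrArg (fun y : J K => (h⁻¹.1 * y.2) 0 j) (e1 (jm 0 (zero_mem _) (single 0 i 1)))
    simpa [io_2, Matrix.mul_assoc, ← Matrix.mul_assoc h⁻¹.1] using this))
  subst e2
  refine ⟨rfl, Units.ext ?_⟩
  let A : Matrix S S K := single (0, 0) (0, 1) 1 - single (0, 1) (0, 0) 1
  have hA : A ∈ Alt K := mem_Alt (by simp [A])
  have := congrArg (fun y : J K => (g.1ᵀ * y.1.1 * g.1) (0, 0) (0, 1)) (e1 (jm A hA 0))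
  have e3 : g.1ᵀ * (g⁻¹.1ᵀ * A * g⁻¹.1) * g.1 = A := by
    simp only [← Matrix.mul_assoc]
    rw [← transpose_mul, Units.inv_mul, transpose_one, Matrix.one_mul, Matrix.mul_assoc,
      Units.inv_mul, Matrix.mul_one]
  simp only [io_1, jm_1, Matrix.mul_smul, Matrix.smul_mul, e3] at this
  simpa [A] using this

omit [Algebra k K] in
theorem sim_ii {g : GL S K} {h : GL (Fin 2) K} {l : Kˣ}
    (e : l ^ 2 = GeneralLinearGroup.det g * GeneralLinearGroup.det h) : Sim (ii g h l) :=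
  ⟨l * h.1.det, mul_ne_zero l.ne_zero (Units.ne_zero (GeneralLinearGroup.det h)), fun x => by
    obtain ⟨y, rfl⟩ := co.surjective x
    have e' := congrArg Units.val e
    rw [Units.val_mul, Units.val_pow_eq_pow_val, GeneralLinearGroup.val_det_apply,
      GeneralLinearGroup.val_det_apply] at e'
    rw [← co_E, E_ii, cub_co, cub_co, N_io e']⟩

omit [Algebra k K] [CharZero K] in
theorem Sim.mul {g h : GL I K} (hg : Sim g) (hh : Sim h) : Sim (g * h) := by
  obtain ⟨μ, h1, h2⟩ := hg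
  obtain ⟨ν, h3, h4⟩ := hh
  exact ⟨μ * ν, mul_ne_zero h1 h3, fun x => by
    rw [Units.val_mul, ← mulVec_mulVec, h2, h4, mul_assoc]⟩

variable (o) in
/-- The descent data `p` in the coordinates `m`. -/
structure St (p : (K ≃ₐ[k] K) → GL I K) (h : (K ≃ₐ[k] K) → GL (Fin 2) K) (m : GL I K)
    (g : (K ≃ₐ[k] K) → GL S K) (l : (K ≃ₐ[k] K) → Kˣ) : Prop where
  sim : Sim m
  eq : ∀ σ, m * p σ * (st o σ m)⁻¹ = ii (g σ) (h σ) (l σ)
  det : ∀ σ, l σ ^ 2 = GeneralLinearGroup.det (g σ) * GeneralLinearGroup.det (h σ)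

variable {p : (K ≃ₐ[k] K) → GL I K} {h : (K ≃ₐ[k] K) → GL (Fin 2) K} {m : GL I K}
  {g : (K ≃ₐ[k] K) → GL S K} {l : (K ≃ₐ[k] K) → Kˣ} {d : (K ≃ₐ[k] K) → GL (Fin 3) K}

theorem St.move [IsAlgClosed K] (s : St o p h m g l) (t : GL S K) :
    ∃ m' l', St o p h m' (fun σ => t * g σ * (st o σ t)⁻¹) l' := by
  obtain ⟨r, hr⟩ := IsAlgClosed.exists_eq_mul_self (GeneralLinearGroup.det t).1
  have h0 : r ≠ 0 := fun e => (GeneralLinearGroup.det t).ne_zero (by rw [hr, e, mul_zero])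
  have h1 : Units.mk0 r h0 ^ 2 = GeneralLinearGroup.det t := Units.ext (by rw [hr, sq]; rfl)
  refine ⟨ii t 1 (Units.mk0 r h0) * m, fun σ => Units.mk0 r h0 * l σ * (aK o σ (Units.mk0 r h0))⁻¹,
    Sim.mul (sim_ii (by rw [h1, map_one, mul_one])) s.sim, fun σ => ?_, fun σ => ?_⟩
  · rw [map_mul, _root_.mul_inv_rev, show ∀ a b c d e : GL I K, a * b * c * (d * e) =
      a * (b * c * d) * e from fun _ _ _ _ _ => by group, s.eq, st_ii, ii_inv, ii_mul, ii_mul,
      map_one, inv_one, one_mul, mul_one]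
  · rw [mul_pow, mul_pow, inv_pow, ← map_pow, h1, s.det, map_mul, map_mul, map_inv, det_st]
    simp only [mul_assoc, mul_comm, mul_left_comm]

/-- The companion data of degree six. -/
def dk (d : (K ≃ₐ[k] K) → GL (Fin 3) K) (h : (K ≃ₐ[k] K) → GL (Fin 2) K) (σ : K ≃ₐ[k] K) :
    GL S K := kr (d σ) (it (h σ))

/-- The cocycle of the scalars. -/
def kp (d : (K ≃ₐ[k] K) → GL (Fin 3) K) (h : (K ≃ₐ[k] K) → GL (Fin 2) K)
    (l : (K ≃ₐ[k] K) → Kˣ) (σ : K ≃ₐ[k] K) : Kˣ :=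
  l σ * GeneralLinearGroup.det (h σ) / GeneralLinearGroup.det (d σ)

theorem St.kp_sq (s : St o p h m g l) (σ : K ≃ₐ[k] K) : kp d h l σ ^ 2 =
    GeneralLinearGroup.det (g σ) / GeneralLinearGroup.det (dk d h σ) := by
  rw [kp, dk, det_kr, det_it, div_pow, mul_pow, s.det]
  exact Units.ext (by simp only [Units.val_div_eq_div_val, Units.val_mul, Units.val_pow_eq_pow_val,
    Units.val_inv_eq_inv_val]; field_simp)

theorem St.mul (s : St o p h m g l) {z y : Kˣ} (h1 : p σ * st o σ (p τ) = sc _ z * p (σ * τ))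
    (hy : h σ * st o σ (h τ) = sc _ y * h (σ * τ)) :
    g σ * st o σ (g τ) = sc _ (z * y⁻¹) * g (σ * τ) ∧
      y ^ 2 * (l σ * aK o σ (l τ)) = z ^ 3 * l (σ * τ) := by
  have e : ii (g σ) (h σ) (l σ) * st o σ (ii (g τ) (h τ) (l τ)) =
      sc I z * ii (g (σ * τ)) (h (σ * τ)) (l (σ * τ)) := by
    rw [← s.eq, ← s.eq, ← s.eq, map_mul, map_mul, map_inv, ← st_mul,
      show ∀ a b c d e : GL I K, a * b * c⁻¹ * (c * d * e) = a * (b * d) * e from
        fun _ _ _ _ _ => by group, h1, ← mul_assoc m, mul_sc]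
    group
  rw [st_ii, ii_mul, hy, ii_sc2, sc_ii] at e
  obtain ⟨e1, e2⟩ := ii_inj e
  exact ⟨by rw [mul_comm z, map_mul, map_inv, mul_assoc, ← e1, inv_mul_cancel_left], e2⟩

theorem St.one (s : St o p h m g l) {z : Kˣ} (h1 : o σ = 1) (h2 : p σ = sc _ z * 1)
    (h4 : h σ = 1) (h5 : m.1.map σ = m.1) : g σ = sc _ z * 1 ∧ l σ = z ^ 3 * 1 := by
  have e := s.eq σ
  have e0 : ii (1 : GL S K) 1 1 = 1 :=
    (ii_eq (by rw [Units.val_one, map_one]; exact io_one.symm)).symm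
  rw [show st o σ m = m from Units.ext ((st_in o h1 m).trans h5), h2, mul_one, mul_sc,
    mul_inv_cancel_right, h4, ← mul_one (sc I z), ← e0, sc_ii] at e
  exact ⟨(ii_inj e).1.symm, (ii_inj e).2.symm⟩

theorem St.cmp (s : St o p h m g l) (c : Cmp o p d)
    (hm : ∀ σ τ, ∃ z : Kˣ, h σ * st o σ (h τ) = sc _ z * h (σ * τ))
    (hc : Op ⊤ fun σ => h σ = 1) : Cmp o g (dk d h) ∧
      (∀ σ τ, kp d h l (σ * τ) = kp d h l σ * aK o σ (kp d h l τ)) ∧
      Op ⊤ fun σ => kp d h l σ = 1 := by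
  have k1 : ∀ σ τ, ∃ z : Kˣ, g σ * st o σ (g τ) = sc _ z * g (σ * τ) ∧
      dk d h σ * st o σ (dk d h τ) = sc _ z * dk d h (σ * τ) ∧
      kp d h l (σ * τ) = kp d h l σ * aK o σ (kp d h l τ) := fun σ τ => by
    obtain ⟨z', h1, h2⟩ := sc_of2 (c.mul σ τ)
    obtain ⟨y, hy⟩ := hm σ τ
    obtain ⟨e1, e2⟩ := s.mul h1 hy
    refine ⟨z' * y⁻¹, e1, ?_, ?_⟩
    · rw [dk, dk, dk, st_kr, st_it, ← kr_mul, ← map_mul, h2, hy, map_mul, kr_mul, it_sc, kr_sc]
    · have d1 := congrArg GeneralLinearGroup.det h2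
      have d2 := congrArg GeneralLinearGroup.det hy
      rw [map_mul, map_mul, det_st, det_sc, Fintype.card_fin] at d1 d2
      rw [kp, kp, kp, map_div, map_mul, eq_inv_mul_of_mul_eq e2.symm, eq_inv_mul_of_mul_eq d1.symm,
        eq_inv_mul_of_mul_eq d2.symm]
      exact Units.ext (by simp only [Units.val_div_eq_div_val, Units.val_mul,
        Units.val_pow_eq_pow_val, Units.val_inv_eq_inv_val]; field_simp)
  have k2 : Op (⊤ : Subgroup (K ≃ₐ[k] K)) fun σ => (o σ = 1 ∧ ∃ c : K, (g σ).1 = c • 1 ∧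
      (dk d h σ).1 = c • 1) ∧ kp d h l σ = 1 := by
    refine ((c.cont.and hc).and (Op.mat ⊤ m.1)).imp fun σ _ ⟨⟨⟨h1, h6⟩, h4⟩, h5⟩ => ?_
    obtain ⟨z', h2, h3⟩ := sc_of2 (g' := 1) (d' := 1) h6
    obtain ⟨e1, e2⟩ := s.one h1 h2 h4 h5
    refine ⟨⟨h1, z', ?_, ?_⟩, ?_⟩
    · rw [e1, sc_mul]; rfl
    · rw [dk, h3, h4, map_one, mul_one, ← map_one (sc (Fin 2)), kr_sc, mul_one, sc_val]
    · rw [kp, e2, h3, h4, map_one, mul_one, mul_one, mul_one, det_sc, Fintype.card_fin, div_self']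
  refine ⟨⟨fun σ τ => ?_, k2.imp fun _ _ e => e.1⟩, fun σ τ => (k1 σ τ).choose_spec.2.2,
    k2.imp fun _ _ e => e.2⟩
  obtain ⟨z, h1, h2, -⟩ := k1 σ τ
  exact ⟨z, by rw [h1, sc_mul], by rw [h2, sc_mul]⟩

theorem st_of {α : K} {b : Kˣ} {l : (K ≃ₐ[k] K) → K} (s : SP0 o p α b g l) :
    ∃ l', St o p (hq o α b) 1 g l' := by
  have h0 : ∀ σ, l σ ≠ 0 := fun σ e => mul_ne_zero (det_ne (g σ)) (det_ne (hq o α b σ))
    ((s.det σ).symm.trans (by rw [e, sq, mul_zero]))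
  refine ⟨fun σ => Units.mk0 (l σ) (h0 σ), ⟨1, one_ne_zero, fun x => by simp⟩, fun σ => ?_,
    fun σ => Units.ext ?_⟩
  · rw [map_one, inv_one, one_mul, mul_one]
    exact ii_eq (s.eq σ)
  · rw [Units.val_mul, Units.val_pow_eq_pow_val, GeneralLinearGroup.val_det_apply,
      GeneralLinearGroup.val_det_apply]
    exact s.det σ

omit [CharZero K] in
theorem hq_op {α : K} {b : Kˣ} (h : Op ⊤ fun σ => o σ = 1) : Op ⊤ fun σ => hq o α b σ = 1 :=
  (h.and (Op.fix ⊤ α)).imp fun σ _ e => by rw [hq, if_pos e.1, if_pos e.2, one_mul]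

theorem spd : SPD := fun k K _ _ _ _ o p α b g l hp s => by
  obtain ⟨l', t⟩ := st_of s
  refine ⟨fun σ τ => ?_, ?_⟩
  · obtain ⟨z, h1⟩ := hp.mul σ τ
    obtain ⟨z', -, h2⟩ := sc_of h1
    obtain ⟨y, hy⟩ := hq_mul (o := o) two_ne_zero s.al.1 s.al.2 s.be σ τ
    exact ⟨_, by rw [(t.mul h2 hy).1, sc_mul]⟩
  · refine (hp.cont.and (hq_op (α := α) (b := b) (hp.cont.imp fun _ _ e => e.1))).imp
      fun σ _ ⟨⟨h1, z, h2⟩, h4⟩ => ?_
    obtain ⟨z', -, h3⟩ := sc_of (g' := 1) h2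
    exact ⟨h1, z', by rw [(t.one h1 h3 h4 (map_one' σ)).1, sc_mul]; rfl⟩

end Vale.Agent.P011LF
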