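import Vale.Agent.P011LF.Sgn

/-! The normal form of the descent data of an outer form of `E₆`. -/

set_option linter.all false

open Matrix
open scoped Kronecker ComplexOrder

noncomputable section

namespace Vale.Agent.P011LF

open P011L P011LD P011LE P011LI P011LL

variable {k K : Type} [Field k] [Field K] [Algebra k K] {n : Type} [Fintype n] [DecidableEq n]
  {o : (K ≃ₐ[k] K) →* ℤˣ} {σ τ s : K ≃ₐ[k] K} {g D : (K ≃ₐ[k] K) → GL n K}

theorem norm_in [Algebra.IsAlgebraic k K] [Infinite k] (c : Cmp o g D) :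
    ∃ t : GL n K, ∀ σ, o σ = 1 → t * g σ * (st o σ t)⁻¹ = D σ := by
  obtain ⟨t, ht⟩ := conj_of (Γ := o.ker) g D (fun σ a τ _ => by
    have := c.mul σ τ
    rwa [Units.val_mul, Units.val_mul, st_in o a, st_in o a] at this)
    (c.cont.elim fun S hS => ⟨S, fun σ _ e => (hS σ trivial e).2⟩)
  refine ⟨t, fun σ a => mul_inv_eq_of_eq_mul (Units.ext ?_)⟩
  rw [Units.val_mul, Units.val_mul, st_in o a, ht σ a]

theorem o_io (a : o σ = 1) (b : o s ≠ 1) : o (σ * s) ≠ 1 := by rwa [map_mul, a, one_mul]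

theorem o_oi (b : o s ≠ 1) (a : o σ = 1) : o (s * σ) ≠ 1 := by rwa [map_mul, a, mul_one]

theorem sym_of [Nonempty n] (c : Cmp o g D) (h : ∀ σ, o σ = 1 → g σ = D σ) (a : o s ≠ 1) :
    ∃ u : GL n K, (∀ s, o s ≠ 1 → g s = u * D s) ∧ SymB o D u.1 := by
  have h1 : ∀ s', o s' ≠ 1 → g s' = g s * (D s)⁻¹ * D s' := fun s' b => by
    obtain ⟨z, e1, e2⟩ := sc_of2 (c.mul s (s⁻¹ * s'))
    rw [mul_inv_cancel_left] at e1 e2
    rw [h _ (o_div a b)] at e1
    rw [eq_inv_mul_of_mul_eq e1.symm, eq_inv_mul_of_mul_eq e2.symm, ← map_inv, ← mul_assoc,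
      ← mul_assoc, mul_sc]
    group
  generalize g s * (D s)⁻¹ = u at h1
  refine ⟨u, h1, fun σ b => ?_, fun s' b => ?_⟩
  · obtain ⟨z, e1, e2⟩ := sc_of2 (c.mul σ s)
    rw [h σ b, h1 s a, h1 _ (o_io b a), map_mul, ← mul_assoc (sc n z), ← mul_sc, mul_assoc u, ← e2,
      ← mul_assoc, ← mul_assoc, mul_left_inj] at e1
    rw [← st_in o b, ← Units.val_mul, ← Units.val_mul, e1]
  · obtain ⟨z, e1, e2⟩ := sc_of2 (c.mul s' s')
    rw [h _ (o_mul b b), ← e2, h1 s' b, map_mul, ← mul_assoc, mul_left_inj] at e1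
    have e3 := congrArg Units.val (eq_mul_inv_of_mul_eq e1)
    rwa [← map_inv, Units.val_mul, Units.val_mul, st_out o b, inv_inv] at e3

variable {κ : (K ≃ₐ[k] K) → Kˣ}

theorem norm_of [Algebra.IsAlgebraic k K] (hm : ∀ σ τ, κ (σ * τ) = κ σ * aK o σ (κ τ))
    (hc : Op ⊤ fun σ => κ σ = 1) (h1 : ∀ σ, o σ = 1 → κ σ ^ 2 = 1) (a : o s ≠ 1) {x : Kˣ}
    (h2 : ∀ s, o s ≠ 1 → κ s ^ 2 = x) :
    ∃ z : K, z ≠ 0 ∧ (∀ σ, o σ = 1 → σ z = z) ∧ ∀ s, o s ≠ 1 → x.1 = z * s z := by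
  obtain ⟨ρ, h0, hρ⟩ := h90_one (Γ := o.ker) (fun σ => (κ σ).1) (fun σ b τ _ => by
    rw [hm, Units.val_mul, aK_in o b]) (hc.elim fun S hS => ⟨S, fun σ _ e =>
      congrArg Units.val (hS σ trivial e)⟩)
  have e1 : ∀ s s', o s ≠ 1 → o s' ≠ 1 → (κ s).1 / s ρ / ρ = s ((κ s').1 / s' ρ / ρ) :=
    fun s s' b b' => by
      have e := hρ _ (o_mul b b')
      have f0 : s ρ ≠ 0 := (map_ne_zero s).2 h0
      have f1 : s (s' ρ) ≠ 0 := (map_ne_zero s).2 ((map_ne_zero s').2 h0)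
      have f2 : s (κ s').1 ≠ 0 := (map_ne_zero s).2 (κ s').ne_zero
      simp only [hm, Units.val_mul, aK_out o b, AlgEquiv.mul_apply] at e
      rw [map_div₀, map_div₀]
      field_simp at e ⊢
      linear_combination e
  have e2 : ∀ s', o s' ≠ 1 → s' ((κ s).1 / s ρ / ρ) = (κ s).1 / s ρ / ρ := fun s' b => by
    have f := (e1 s s a a).symm.trans (e1 s s' a b)
    rw [← e1 s' s b a, s.injective f]
  have e3 : ∀ σ, o σ = 1 → σ (ρ ^ 2) = ρ ^ 2 := fun σ b => by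
    have f := congrArg Units.val (h1 σ b)
    have f' := hρ σ b
    rw [Units.val_pow_eq_pow_val, Units.val_one] at f
    rw [map_pow]
    linear_combination (-(σ ρ) ^ 2) * f + ((κ σ).1 * σ ρ + ρ) * f'
  refine ⟨(κ s).1 / s ρ / ρ * ρ ^ 2, mul_ne_zero (div_ne_zero (div_ne_zero (κ s).ne_zero
    ((map_ne_zero s).2 h0)) h0) (pow_ne_zero _ h0), fun σ b => ?_, fun s' b => ?_⟩
  · rw [map_mul, e3 σ b, ← e2 s a, ← AlgEquiv.mul_apply, e2 _ (o_io b a), e2 s a]
  · have f0 : s' ρ ≠ 0 := (map_ne_zero s').2 h0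
    rw [map_mul, e2 s' b, ← e2 s' b, ← e1 s' s b a, ← h2 s' b, Units.val_pow_eq_pow_val, map_pow]
    field_simp

theorem gamma_of [Algebra.IsAlgebraic k K] (hm : ∀ σ τ, κ (σ * τ) = κ σ * aK o σ (κ τ))
    (hc : Op ⊤ fun σ => κ σ = 1) (ho : Op ⊤ fun σ => o σ = 1) (h1 : ∀ σ, κ σ ^ 2 = 1) :
    ∃ γ : K, γ ≠ 0 ∧ (∀ σ : K ≃ₐ[k] K, σ (γ ^ 2) = γ ^ 2) ∧
      ∀ σ, ((o σ : ℤ) : K) * (σ γ / γ) = κ σ := by
  have e0 : ∀ σ, (κ σ).1 = 1 ∨ (κ σ).1 = -1 := fun σ => mul_self_eq_one_iff.1 (by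
    rw [← sq, ← Units.val_pow_eq_pow_val, h1, Units.val_one])
  obtain ⟨γ, h0, hγ⟩ := h90_one (Γ := ⊤) (fun σ => (κ σ).1 * ((o σ : ℤ) : K)) (fun σ _ τ _ => by
    rw [hm, Units.val_mul, map_mul, map_mul, map_intCast, Units.val_mul, Int.cast_mul]
    have : (aK o σ (κ τ)).1 = σ (κ τ).1 := by
      by_cases b : o σ = 1
      · exact aK_in o b _
      · rw [aK_out o b]
        rcases e0 τ with e | e <;> simp [e]
    rw [this]
    ring) ((hc.and ho).imp fun σ _ e => by rw [e.1, e.2]; simp)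
  have e1 : ∀ σ, σ γ = (κ σ).1 * ((o σ : ℤ) : K) * γ := fun σ => by
    have := hγ σ trivial
    rcases e0 σ with e | e <;> rcases Int.units_eq_one_or (o σ) with e' | e' <;>
      simp only [e, e', Units.val_one, Units.val_neg, Int.cast_one, Int.cast_neg] at this ⊢ <;>
      first | linear_combination this | linear_combination -this
  refine ⟨γ, h0, fun σ => ?_, fun σ => ?_⟩
  · rw [map_pow, e1]
    rcases e0 σ with e | e <;> rcases Int.units_eq_one_or (o σ) with e' | e' <;> simp [e, e']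
  · rw [e1, mul_div_cancel_right₀ _ h0]
    rcases Int.units_eq_one_or (o σ) with e' | e' <;> simp [e']

variable {p : (K ≃ₐ[k] K) → GL I K} {π : (K ≃ₐ[k] K) →* Equiv.Perm (Fin 3)}
  {c : (K ≃ₐ[k] K) → Fin 3 → K} {d : (K ≃ₐ[k] K) → GL (Fin 3) K}

theorem mon_tw (hm : Mon o p π c d) {x : Fin 3 → K} (h0 : ∀ j, x j ≠ 0)
    (hx : ∀ σ j, σ (x j) = x (π σ j)) : ∃ (G : GL (Fin 3) K) (c' : _), G.1 = diagonal x ∧
      Mon o p π c' fun σ => (if o σ = 1 then 1 else G) * d σ := by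
  let G : GL (Fin 3) K := mg 1 fun j => Units.mk0 (x j) (h0 j)
  have h1 : G.1 = diagonal x := by
    ext i j
    by_cases e : i = j <;> simp [G, mg, mono, diagonal_apply, e]
  have h2 : ∀ σ, (d σ).1 * G.1.map σ = G.1 * (d σ).1 := fun σ => by
    rw [h1, hm.val, diagonal_map (map_zero σ)]
    ext i j
    rw [mul_diagonal, diagonal_mul, hx]
    by_cases e : i = π σ j <;> simp [mono, e, mul_comm]
  have h3 : ∀ σ, o σ = 1 → d σ * st o σ G = G * d σ := fun σ a => Units.ext (by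
    rw [Units.val_mul, st_in o a, h2, Units.val_mul])
  have h4 : ∀ σ, o σ ≠ 1 → G * d σ * st o σ G = d σ := fun σ a => Units.ext (by
    have e : (G.1.map σ)ᵀ = G.1.map σ := by rw [h1, diagonal_map (map_zero σ), diagonal_transpose]
    rw [Units.val_mul, Units.val_mul, st_out o a, ← h2, ← e, mul_assoc, ← transpose_mul,
      ← map_mul', Units.inv_mul, map_one', transpose_one, mul_one])
  refine ⟨G, fun σ j => (if o σ = 1 then 1 else x (π σ j)) * c σ j, h1, ⟨fun σ τ => ?_,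
    hm.cmp.cont.imp fun σ _ e => ⟨e.1, by simpa only [if_pos e.1, one_mul] using e.2⟩⟩,
    fun σ => ?_, hm.three, fun σ a b j => by simp only [if_pos a, hm.sc σ a b j],
    hm.cyc.imp_right fun ⟨a, r, b, e, f⟩ => ⟨a, r, b, e, by simp only [if_pos b, f]⟩⟩
  · obtain ⟨z, e1, e2⟩ := hm.cmp.mul σ τ
    have e : (if o σ = 1 then 1 else G) * d σ * st o σ ((if o τ = 1 then 1 else G) * d τ) =
        (if o (σ * τ) = 1 then 1 else G) * (d σ * st o σ (d τ)) := by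
      by_cases a : o σ = 1 <;> by_cases b : o τ = 1
      · rw [if_pos a, if_pos b, if_pos (by rw [map_mul, a, b, one_mul]), one_mul, one_mul, one_mul]
      · rw [if_pos a, if_neg b, if_neg (o_io a b), one_mul, map_mul, ← mul_assoc, h3 σ a, mul_assoc]
      · rw [if_neg a, if_pos b, if_neg (o_oi a b), one_mul, mul_assoc]
      · rw [if_neg a, if_neg b, if_pos (o_mul a b), one_mul, map_mul, ← mul_assoc, h4 σ a]
    exact ⟨z, e1, by rw [e, Units.val_mul, e2, Units.val_mul, Matrix.mul_smul]⟩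
  · split_ifs
    · simp only [one_mul, hm.val]
    · rw [Units.val_mul, h1, hm.val]
      ext i j
      rw [diagonal_mul]
      by_cases e : i = π σ j <;> simp [mono, e]

theorem exists_x (ha : APX) [NumberField k] [IsAlgClosure k K] (hm : Mon o p π c d) {ι : Type}
    [Finite ι] {w : ι → K →+* ℂ} {κ : ι → K ≃ₐ[k] K} (h1 : ∀ i, Cj (w i) (κ i))
    (h2 : ∀ i j, (∀ x : k, w i (algebraMap k K x) = w j (algebraMap k K x)) → i = j)
    (η : ι → Fin 3 → ℤˣ) : ∃ x : Fin 3 → K, (∀ j, x j ≠ 0) ∧ (∀ σ j, σ (x j) = x (π σ j)) ∧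
      ∀ i j, 0 < (w i (((η i j : ℤ) : K) * x j)).re := by
  rcases isEmpty_or_nonempty ι with e | ⟨⟨i0⟩⟩
  · exact ⟨1, fun _ => one_ne_zero, fun σ _ => map_one σ, fun i => e.elim i⟩
  have h3 : Op (⊤ : Subgroup (K ≃ₐ[k] K)) fun σ => π σ = 1 :=
    hm.cmp.cont.imp fun σ _ ⟨_, z, _, e⟩ => Equiv.ext fun j => by
      by_contra f
      have e1 := det_ne (d σ)
      have e2 := congrFun (congrFun ((hm.val σ).symm.trans e) j) j
      rw [e, det_smul, det_one, mul_one] at e1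
      have f' : ¬j = π σ j := fun e => f e.symm
      simp [mono, f'] at e2
      exact e1 (by rw [← e2]; simp)
  have S : Sl ⊤ fun (σ : K ≃ₐ[k] K) (v : Fin 3 → K) j => σ (v ((π σ).symm j)) :=
    ⟨fun σ _ v w => funext fun j => map_add σ _ _, fun σ _ x v => funext fun j => map_mul σ _ _,
      fun σ s τ t v => funext fun j => by rw [map_mul]; rfl,
      fun v => (h3.and (Op.vec ⊤ v)).imp fun σ _ e => funext fun j => by
        rw [e.1]; exact congrFun e.2 j⟩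
  obtain ⟨x, hx, h⟩ := ha k K (Fin 3 → K) ⊤ _ ⟨∅, fun _ _ _ => trivial⟩ S ι (Fin 3) w κ h1 h2
    (fun i j => ((η i j : ℤ) : K)) (fun i j v => ((η i j : ℤ) : K) * v.1 j)
    (fun i _ => funext fun j => by rw [pi_cj hm (h1 i), map_intCast]; rfl)
    (fun i j => Algebra.subset_adjoin (Or.inl ⟨((η i j : ℤ) : K) • LinearMap.proj j, rfl⟩))
    fun i j => by rcases Int.units_eq_one_or (η i j) with e | e <;> simp [e]
  refine ⟨x, fun j e => ?_, fun σ j => ?_, h⟩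
  · simpa [e] using h i0 j
  · have := congrFun (hx σ trivial) (π σ j)
    simpa only [Equiv.symm_apply_apply] using this

theorem nfb (hl : LAND) (ha : APX) (hr : REPS) : NFB :=
  fun k K _ _ _ _ _ _ o p π c d α b g l hp ⟨s, hs⟩ hm sp re => by
  have : IsAlgClosed K := IsAlgClosure.isAlgClosed k
  have ho : Op ⊤ fun σ => o σ = 1 := hp.pd.cont.imp fun _ _ e => e.1
  have hmul := hq_mul (o := o) two_ne_zero sp.al.1 sp.al.2 sp.be
  have hop := hq_op (α := α) (b := b) ho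
  obtain ⟨l0, s0⟩ := st_of sp
  obtain ⟨t1, h1⟩ := norm_in (s0.cmp hm.cmp hmul hop).1
  obtain ⟨m1, l1, s1⟩ := s0.move t1
  obtain ⟨c1, k1, k2⟩ := s1.cmp hm.cmp hmul hop
  obtain ⟨u, hu, su⟩ := sym_of c1 h1 hs
  obtain ⟨z, z0, z1, z2⟩ := norm_of k1 k2 (fun σ a => by rw [s1.kp_sq, h1 σ a, div_self']) hs
    (x := GeneralLinearGroup.det u) fun σ a => by
      rw [s1.kp_sq, hu σ a, map_mul, mul_div_cancel_right]
  simp only [GeneralLinearGroup.val_det_apply] at z2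
  obtain ⟨ι, _, w, κ, r1, r2, r3⟩ := hr k K o
  choose η hη using fun i => sig_at hm (r1 i).1 (r1 i).2 (re _ _ (r1 i).1 (r1 i).2).1 (sp.be _)
    (re _ _ (r1 i).1 (r1 i).2).2.1 su z0 (z2 _ (r1 i).2)
  obtain ⟨x, x0, x1, x2⟩ := exists_x ha hm (fun i => (r1 i).1) r2 η
  obtain ⟨G, c', hG, hm'⟩ := mon_tw hm x0 x1
  have pD : PD o (dk d (hq o α b)) := ⟨fun σ τ => (c1.mul σ τ).imp fun _ e => e.2,
    c1.cont.imp fun _ _ e => ⟨e.1, e.2.imp fun _ e => e.2⟩⟩
  have f1 : ∀ σ : K ≃ₐ[k] K, (diagonal fun i : S => x i.1) * (dk d (hq o α b) σ).1 =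
      (dk d (hq o α b) σ).1 * (diagonal fun i : S => x i.1).map σ := fun σ => by
    rw [diagonal_map (map_zero σ)]
    ext i j
    rw [mul_diagonal, diagonal_mul, x1]
    change _ * ((d σ).1 i.1 j.1 * _) = (d σ).1 i.1 j.1 * _ * _
    rw [hm.val]
    by_cases e : i.1 = π σ j.1 <;> simp [mono, e, mul_comm]
  have su' : SymB o (dk d (hq o α b)) (diagonal fun i : S => x i.1) := ⟨fun σ _ => f1 σ,
    fun σ _ => by rw [f1, diagonal_map (map_zero σ), diagonal_transpose]⟩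
  have f2 : (diagonal fun i : S => x i.1).det = (∏ j, x j) ^ 2 := by
    simp only [det_diagonal, Fintype.prod_prod_type, Fin.prod_univ_three, Fin.prod_univ_two]
    ring
  have f3 : ∀ σ : K ≃ₐ[k] K, σ (∏ j, x j) = ∏ j, x j := fun σ => by
    rw [map_prod]
    simp only [x1]
    exact Equiv.prod_comp (π σ) x
  have f4 : ∏ j, x j ≠ 0 := Finset.prod_ne_zero_iff.2 fun j _ => x0 j
  obtain ⟨t, t1', t2⟩ := hl k K S o _ pD ⟨s, hs⟩ u.1 _ su su' (by rw [f2]; exact pow_ne_zero _ f4)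
    ⟨z / ∏ j, x j, div_ne_zero z0 f4, fun σ a => by rw [map_div₀, z1 σ a, f3], fun σ a => by
      rw [map_div₀, f3, f2, z2 σ a]; field_simp⟩ fun w' κ' a a' => by
    obtain ⟨i, σ, e1, e2⟩ := r3 w' κ' a a'
    exact cg_all pD su.1 su'.1 (r1 i).1 (r1 i).2 e1 e2 (hη i x (fun j => by
      rw [x1, pi_cj hm (r1 i).1]; rfl) (x2 i))
  obtain ⟨m2, l2, s2⟩ := s1.move t⁻¹
  have f5 : ∀ σ, t⁻¹ * (t1 * g σ * (st o σ t1)⁻¹) * (st o σ t⁻¹)⁻¹ =
      dk (fun σ => (if o σ = 1 then 1 else G) * d σ) (hq o α b) σ := fun σ => by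
    rw [map_inv, inv_inv, mul_assoc, inv_mul_eq_iff_eq_mul]
    by_cases a : o σ = 1
    · rw [h1 σ a, dk, dk, if_pos a, one_mul]
      exact Units.ext (by rw [Units.val_mul, st_in o a]; exact (t1' σ a).symm)
    · have e : (kr G 1).1 = diagonal fun i : S => x i.1 := by
        change G.1 ⊗ₖ (1 : Matrix (Fin 2) (Fin 2) K) = _
        rw [hG, ← diagonal_one, diagonal_kronecker_diagonal]
        simp only [mul_one]
      rw [hu σ a, dk, dk, if_neg a, ← one_mul (it _), kr_mul G, one_mul]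
      refine Units.ext ?_
      rw [Units.val_mul, Units.val_mul, Units.val_mul, Units.val_mul, e, st_out o a]
      refine (congrArg (· * _) (t2 σ a)).trans ?_
      rw [mul_assoc, ← transpose_mul, ← map_mul', Units.inv_mul, map_one', transpose_one, mul_one]
      rfl
  simp only [f5] at s2
  obtain ⟨-, k3, k4⟩ := s2.cmp hm'.cmp hmul hop
  have k5 := fun σ => (s2.kp_sq (d := fun σ => (if o σ = 1 then 1 else G) * d σ) σ).trans
    (div_self' _)
  obtain ⟨γ, g0, g1, g2⟩ := gamma_of k3 k4 ho k5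
  refine ⟨c', _, γ, m2, hm', ⟨sp.al, ⟨g0, g1⟩, sp.be, s2.sim, fun σ => ?_⟩,
    fun w' κ' a a' e => (re _ _ a a').2.2 (df_of hm' a a' (re _ _ a a').1 (sp.be _)
      (re _ _ a a').2.1 (t := t⁻¹ * t1) (by rw [← f5, map_mul]; group) e)⟩
  have e := congrArg Units.val (k5 σ)
  refine ⟨((o σ : ℤ) : K) * (σ γ / γ),
    (congrArg (fun X : GL I K => E X.1) (s2.eq σ)).trans ((E_ii _ _ _).trans ?_)⟩
  rw [g2, io_smul, smul_smul, ← sq, ← Units.val_pow_eq_pow_val, e, Units.val_one, one_smul, kp,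
    Units.val_div_eq_div_val, Units.val_mul, GeneralLinearGroup.val_det_apply,
    GeneralLinearGroup.val_det_apply, div_mul_div_cancel₀ (det_ne _),
    mul_div_cancel_right₀ _ (det_ne _)]
  rfl

end Vale.Agent.P011LF
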