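import Vale.Agent.P011LF.Io
import Vale.Agent.P011LL.Main

/-! Signatures at the real places. -/

set_option linter.all false

open Matrix
open scoped Kronecker ComplexOrder

noncomputable section

namespace Vale.Agent.P011LF

open P011L P011LD P011LE P011LI P011LL

section cg

variable {ι : Type} [Fintype ι] [DecidableEq ι] {X Y : Matrix ι ι ℂ}

theorem cg_smul (c : ℂ) (h : Cg X Y) : Cg (c • X) (c • Y) := by
  obtain ⟨Q, a, rfl⟩ := h
  exact ⟨Q, a, by rw [Matrix.mul_smul, Matrix.smul_mul]⟩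

theorem cg_conj (h : Cg X Y) : Cg (X.map (starRingEnd ℂ)) (Y.map (starRingEnd ℂ)) := by
  obtain ⟨Q, a, rfl⟩ := h
  exact ⟨Q.map (starRingEnd ℂ), a.map (starRingEnd ℂ).mapMatrix, by
    rw [Matrix.map_mul, Matrix.map_mul]; rfl⟩

end cg

theorem even_card : ∀ η : S → ℤˣ, ∏ i, η i = 1 → ∃ m : Fin 4,
    Fintype.card {i // η i = 1} = Fintype.card {i : S // i.1.1 < m.1} := by
  decide +kernel

/-- The choice of the signs. -/
theorem sig {X : Matrix S S ℂ} (hX : X.IsHermitian) {t : ℝ} (ht : 0 < t) (hd : X.det = t)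
    {r : Fin 3 → ℝ} (hr : ∀ j, r j ≠ 0) {β : Fin 2 → ℝ} (hβ : ∀ i, β i < 0) :
    ∃ η : Fin 3 → ℤˣ, ∀ x : Fin 3 → ℝ, (∀ j, 0 < ((η j : ℤ) : ℝ) * x j) →
      Cg X (diagonal fun i => ((x i.1 * r i.1 * β i.2 : ℝ) : ℂ)) := by
  have uX : IsUnit X := (isUnit_iff_isUnit_det _).2 (by
    rw [hd]; exact (Complex.ofReal_ne_zero.2 ht.ne').isUnit)
  obtain ⟨T, ε, a, b⟩ := P011.RP.exists_sign_diag hX uX
  have e := congrArg det b
  rw [det_mul, det_mul, det_conjTranspose, hd, det_diagonal, mul_right_comm, Complex.star_def,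
    Complex.mul_conj, ← Complex.ofReal_mul, ← Complex.ofReal_prod, Complex.ofReal_inj,
    ← Int.cast_prod, ← Units.coe_prod] at e
  have e1 : ∏ i, ε i = 1 := (sgn_pos _).1 (e ▸ mul_pos (Complex.normSq_pos.2
    ((isUnit_iff_isUnit_det _).1 a).ne_zero) ht)
  obtain ⟨m, hm⟩ := even_card ε e1
  refine ⟨fun j => if (j.1 < m.1 ↔ r j < 0) then 1 else -1, fun x hx => ?_⟩
  have k : ∀ i : S, x i.1 * r i.1 * β i.2 ≠ 0 ∧ (0 < x i.1 * r i.1 * β i.2 ↔ i.1.1 < m.1) :=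
    fun i => by
      have h1 := hx i.1
      have h2 := hβ i.2
      have h3 : ∀ s : ℝ, 0 < s * β i.2 ↔ s < 0 := fun s =>
        ⟨fun h => by by_contra c; nlinarith [not_lt.1 c], fun h => mul_pos_of_neg_of_neg h h2⟩
      rw [h3]
      have h4 : x i.1 ≠ 0 := fun e => by simp [e] at h1
      refine ⟨mul_ne_zero (mul_ne_zero h4 (hr _)) h2.ne, ?_⟩
      by_cases c1 : i.1.1 < m.1 <;> rcases lt_or_gt_of_ne (hr i.1) with c2 | c2 <;>
        simp [c1, c2, c2.le, not_lt.2 c2.le] at h1 ⊢ <;> nlinarith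
  refine cg_of_np hX uX (isHermitian_diagonal_of_self_adjoint _ (funext fun i =>
    Complex.conj_ofReal _)) (isUnit_diagonal.2 (Pi.isUnit_iff.2 fun i =>
      (Complex.ofReal_ne_zero.2 (k i).1).isUnit)) ?_
  rw [np_eq a b, np_eq (T := 1) (d := fun i : S => x i.1 * r i.1 * β i.2) isUnit_one (by simp)]
  simp only [sgn_pos, fun i => (k i).2]
  exact hm

variable {k K : Type} [Field k] [Field K] [Algebra k K] {n : Type} [Fintype n] [DecidableEq n]
  {o : (K ≃ₐ[k] K) →* ℤˣ} {σ τ κ κ' : K ≃ₐ[k] K} {M : (K ≃ₐ[k] K) → GL n K} {w w' : K →+* ℂ}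

omit [DecidableEq n] [Fintype n] in
theorem map_cj (h : Cj w κ) (X : Matrix n n K) : (X.map κ)ᵀ.map w = (X.map w)ᴴ :=
  Matrix.ext fun i j => h _

theorem cj_sq (h : Cj w κ) : κ * κ = 1 := AlgEquiv.ext fun x => w.injective (by
  rw [AlgEquiv.mul_apply, h, h, star_star]; rfl)

theorem cj_re (h : Cj w κ) {x : K} (e : κ x = x) : w x = ((w x).re : ℂ) :=
  (Complex.conj_eq_iff_re.1 ((h x).symm.trans (congrArg w e))).symm

theorem unit_w (g : GL n K) : IsUnit (g.1.map w) := g.isUnit.map w.mapMatrix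

theorem cg_in [Nonempty n] (hp : PD o M) {u u' : Matrix n n K} (hu : InB o M u) (hu' : InB o M u')
    (h : Cj w κ) (a : o κ ≠ 1) (b : o τ = 1) (e : κ * τ = τ * κ')
    (c : Cg ((u * (M κ).1).map w) ((u' * (M κ).1).map w)) :
    Cg (((u * (M κ').1).map τ).map w) (((u' * (M κ').1).map τ).map w) := by
  obtain ⟨z1, h1⟩ := hp.mul τ κ'
  obtain ⟨z2, h2⟩ := hp.mul κ τ
  obtain ⟨y1, -, h3⟩ := sc_of h1
  obtain ⟨y2, -, h4⟩ := sc_of h2
  have h5 : st o τ (M κ') = sc n (y1 * y2⁻¹) * ((M τ)⁻¹ * (M κ * st o κ (M τ))) := by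
    rw [h4, e, map_mul, map_inv, eq_inv_mul_of_mul_eq h3, ← mul_assoc (M τ)⁻¹, ← mul_assoc (M τ)⁻¹,
      mul_sc, mul_sc]
    group
  have h6 := congrArg Units.val h5
  rw [st_in o b, sc_mul, Units.val_mul (M τ)⁻¹, Units.val_mul (M κ), st_out o a] at h6
  have h7 : ∀ u, InB o M u → ((u * (M κ').1).map τ).map w = w (y1 * y2⁻¹).1 •
      ((M τ)⁻¹.1.map w * (u * (M κ).1).map w * ((M τ)⁻¹.1.map w)ᴴ) := fun u hu => by
    have h8 : u.map τ * (M τ)⁻¹.1 = (M τ)⁻¹.1 * u := by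
      rw [Units.mul_inv_eq_iff_eq_mul, mul_assoc, hu τ b, Units.inv_mul_cancel_left]
    rw [map_mul', h6, Matrix.mul_smul, ← mul_assoc, h8, ← map_cj h, ← Matrix.map_mul,
      ← Matrix.map_mul, mul_assoc, mul_assoc, mul_assoc]
    exact Matrix.ext fun _ _ => map_mul w _ _
  rw [h7 u hu, h7 u' hu']
  exact cg_smul _ (((Cg.symm ⟨_, unit_w _, rfl⟩).trans c).trans ⟨_, unit_w _, rfl⟩)

/-- The congruence depends only on the place. -/
theorem cg_all [Nonempty n] (hp : PD o M) {u u' : Matrix n n K} (hu : InB o M u)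
    (hu' : InB o M u') (h : Cj w κ) (a : o κ ≠ 1) (hw : ∀ x, w' x = w (σ x))
    (e : κ * σ = σ * κ') (c : Cg ((u * (M κ).1).map w) ((u' * (M κ).1).map w)) :
    Cg ((u * (M κ').1).map w') ((u' * (M κ').1).map w') := by
  by_cases b : o σ = 1
  · have f : ∀ X : Matrix n n K, X.map w' = (X.map σ).map w := fun X =>
      Matrix.ext fun _ _ => hw _
    rw [f, f]
    exact cg_in hp hu hu' h a b e c
  · have f : ∀ X : Matrix n n K, X.map w' = ((X.map ⇑(κ * σ)).map w).map (starRingEnd ℂ) :=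
      fun X => Matrix.ext fun i j => (hw _).trans ((star_star _).symm.trans
        (congrArg star (h _).symm))
    rw [f, f]
    exact cg_conj (cg_in hp hu hu' h a (o_mul a b) (by rw [mul_assoc, ← e]) c)

variable {p : (K ≃ₐ[k] K) → GL I K} {π : (K ≃ₐ[k] K) →* Equiv.Perm (Fin 3)}
  {c : (K ≃ₐ[k] K) → Fin 3 → K} {d : (K ≃ₐ[k] K) → GL (Fin 3) K}

theorem pi_cj (hm : Mon o p π c d) (h : Cj w κ) : π κ = 1 := by
  have h1 := hm.three κ
  rwa [pow_succ, sq, ← map_mul, cj_sq h, map_one, one_mul] at h1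

theorem d_real (hm : Mon o p π c d) (h : Cj w κ) (a : o κ ≠ 1) : ∃ (ζ : K) (r : Fin 3 → K),
    (∀ j, r j ≠ 0 ∧ κ (r j) = r j) ∧ (d κ).1 = ζ • diagonal r := by
  have h1 : (d κ).1 = diagonal (c κ) := by
    rw [hm.val, pi_cj hm h]
    ext i j
    by_cases e : i = j <;> simp [mono, diagonal_apply, e]
  have h2 : ∀ j, c κ j ≠ 0 := fun j => by
    have := det_ne (d κ)
    rw [h1, det_diagonal] at this
    exact Finset.prod_ne_zero_iff.1 this j (Finset.mem_univ j)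
  obtain ⟨z, -, h3⟩ := hm.cmp.mul κ κ
  obtain ⟨S, hS⟩ := hm.cmp.cont
  obtain ⟨-, y, -, h4⟩ := hS 1 trivial fun _ _ => rfl
  rw [cj_sq h, h4, Units.val_mul, st_out o a] at h3
  have h5 := congrArg (· * ((d κ).1.map κ)ᵀ) h3
  simp only [mul_assoc, tr_inv, mul_one, smul_smul, smul_mul_assoc, one_mul] at h5
  have h6 : ∀ j, c κ j = z * y * κ (c κ j) := fun j => by
    simpa [h1] using congrFun (congrFun h5 j) j
  refine ⟨c κ 0, fun j => c κ j / c κ 0, fun j => ⟨div_ne_zero (h2 j) (h2 0), ?_⟩, ?_⟩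
  · rw [map_div₀, div_eq_div_iff ((map_ne_zero κ).2 (h2 0)) (h2 0)]
    linear_combination κ (c κ j) * h6 0 - κ (c κ 0) * h6 j
  · rw [h1, ← diagonal_smul]
    congr 1
    funext j
    rw [Pi.smul_apply, smul_eq_mul, mul_div_cancel₀ _ (h2 0)]

theorem it_hq {α : K} {b : Kˣ} (a : o κ ≠ 1) (e : κ α ≠ α) :
    (it (hq o α b κ)).1 = diagonal ![b⁻¹.1, -1] := by
  rw [hq, if_neg a, if_neg e]
  change ((!![0, 1; -1, 0] : Matrix (Fin 2) (Fin 2) K) * !![0, 1; b⁻¹.1, 0])ᵀ = _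
  ext i j
  fin_cases i <;> fin_cases j <;> simp

theorem dk_real {α : K} {b : Kˣ} {ζ : K} {r : Fin 3 → K} (a : o κ ≠ 1) (e : κ α ≠ α)
    (h : (d κ).1 = ζ • diagonal r) :
    (dk d (hq o α b) κ).1 = ζ • diagonal fun i : S => r i.1 * ![b⁻¹.1, -1] i.2 := by
  change (d κ).1 ⊗ₖ (it (hq o α b κ)).1 = _
  rw [h, it_hq a e, smul_kronecker, diagonal_kronecker_diagonal]

theorem beta_neg {b : Kˣ} (h : Cj w κ) (hb : κ b = b) (h0 : (w b).re < 0) (i : Fin 2) :
    w (![b⁻¹.1, -1] i) = ((![(w b).re⁻¹, -1] i : ℝ) : ℂ) ∧ ![(w b).re⁻¹, -1] i < 0 := by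
  fin_cases i
  · refine ⟨?_, inv_lt_zero.2 h0⟩
    show w b⁻¹.1 = (((w b).re⁻¹ : ℝ) : ℂ)
    rw [Units.val_inv_eq_inv_val, map_inv₀, Complex.ofReal_inv, ← cj_re h hb]
  · simp

/-- The signs at one place. -/
theorem sig_at {α : K} {b : Kˣ} (hm : Mon o p π c d) (h : Cj w κ) (a : o κ ≠ 1) (e : κ α ≠ α)
    (hb : κ b = b) (h0 : (w b).re < 0) {u : Matrix S S K} (hu : SymB o (dk d (hq o α b)) u) {z : K}
    (hz : z ≠ 0) (hd : u.det = z * κ z) : ∃ η : Fin 3 → ℤˣ, ∀ x : Fin 3 → K,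
      (∀ j, κ (x j) = x j) → (∀ j, 0 < (w (((η j : ℤ) : K) * x j)).re) →
      Cg ((u * (dk d (hq o α b) κ).1).map w)
        (((diagonal fun i : S => x i.1) * (dk d (hq o α b) κ).1).map w) := by
  obtain ⟨ζ, r, hr, h1⟩ := d_real hm h a
  have h2 := dk_real (α := α) (b := b) a e h1
  have h3 : ζ ≠ 0 := fun f => (dk d (hq o α b) κ).ne_zero (by rw [h2, f, zero_smul])
  have h4 := hu.2 κ a
  rw [h2, Matrix.mul_smul, Matrix.smul_mul] at h4
  replace h4 := smul_right_injective _ h3 h4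
  have h5 : (diagonal fun i : S => r i.1 * ![b⁻¹.1, -1] i.2).map w =
      diagonal fun i : S => (((w (r i.1)).re * ![(w b).re⁻¹, -1] i.2 : ℝ) : ℂ) := by
    rw [diagonal_map (map_zero w)]
    congr 1
    funext i
    rw [map_mul, (beta_neg h hb h0 _).1, Complex.ofReal_mul, ← cj_re h (hr _).2]
  have h6 : ∀ j, (w (r j)).re ≠ 0 := fun j f =>
    (map_ne_zero w).2 (hr j).1 (by rw [cj_re h (hr j).2, f, Complex.ofReal_zero])
  have hX : ((u * diagonal fun i : S => r i.1 * ![b⁻¹.1, -1] i.2).map w).IsHermitian := by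
    have := congrArg (fun X => X.map w) h4
    simp only [Matrix.map_mul, map_cj h] at this
    rw [IsHermitian, Matrix.map_mul, conjTranspose_mul, this, h5, diagonal_conjTranspose]
    congr 2
    exact funext fun i => Complex.conj_ofReal _
  obtain ⟨η, hη⟩ := sig hX (t := Complex.normSq (w z) * (((w (r 0)).re * (w (r 1)).re *
    (w (r 2)).re) ^ 2 * (-(w b).re⁻¹) ^ 3)) (mul_pos (Complex.normSq_pos.2 ((map_ne_zero w).2 hz))
      (mul_pos (sq_pos_iff.2 (mul_ne_zero (mul_ne_zero (h6 0) (h6 1)) (h6 2)))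
        (pow_pos (neg_pos.2 (inv_lt_zero.2 h0)) 3))) (by
      rw [Matrix.map_mul, det_mul, h5, det_diagonal, ← Complex.ofReal_prod, Complex.ofReal_mul,
        ← Complex.mul_conj, ← Complex.star_def, ← h, ← map_mul, ← hd]
      congr 1
      · exact (RingHom.map_det w u).symm
      · simp only [Fintype.prod_prod_type, Fin.prod_univ_three, Fin.prod_univ_two, cons_val_zero,
          cons_val_one]
        congr 1
        ring) h6 fun i => (beta_neg h hb h0 i).2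
  refine ⟨η, fun x hx hs => ?_⟩
  have h7 := cg_smul (w ζ) (hη (fun j => (w (x j)).re) fun j => by simpa using hs j)
  have h8 : ∀ X : Matrix S S K, (ζ • X).map w = w ζ • X.map w := fun X =>
    Matrix.ext fun _ _ => map_mul w _ _
  rw [h2, Matrix.mul_smul, Matrix.mul_smul, h8, h8, Matrix.map_mul (L := diagonal _), h5,
    diagonal_map (map_zero w), diagonal_mul_diagonal]
  refine (congrArg (fun v : S → ℂ => Cg _ (w ζ • diagonal v)) (funext fun i => ?_)).mp h7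
  rw [mul_assoc, Complex.ofReal_mul, ← cj_re h (hx _)]

/-- Definiteness. -/
theorem df_of {α : K} {b : Kˣ} (hm : Mon o p π c d) (h : Cj w κ) (a : o κ ≠ 1) (e : κ α ≠ α)
    (hb : κ b = b) (h0 : (w b).re < 0) {g t : GL S K}
    (hg : t * g * (st o κ t)⁻¹ = dk d (hq o α b) κ) (hd : Df w (d κ).1) : Df w g.1 := by
  obtain ⟨ζ, r, hr, h1⟩ := d_real hm h a
  have h2 := dk_real (α := α) (b := b) a e h1
  obtain ⟨z, hz⟩ := hd
  have h3 : g = t⁻¹ * dk d (hq o α b) κ * st o κ t := by rw [← hg]; group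
  rw [h1, ← diagonal_smul, diagonal_map (map_zero w), ← diagonal_smul, posDef_diagonal_iff] at hz
  refine ⟨-z, ?_⟩
  rw [h3, Units.val_mul, Units.val_mul, st_out o a, Matrix.map_mul, Matrix.map_mul, map_cj h,
    ← Matrix.smul_mul, ← Matrix.mul_smul, ← star_eq_conjTranspose,
    (unit_w t⁻¹).posDef_star_right_conjugate_iff, h2, ← diagonal_smul, diagonal_map (map_zero w),
    ← diagonal_smul, posDef_diagonal_iff]
  intro i
  have := mul_pos (hz i.1) (Complex.zero_lt_real.2 (neg_pos.2 (beta_neg h hb h0 i.2).2))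
  rw [Complex.ofReal_neg, ← (beta_neg h hb h0 i.2).1] at this
  refine this.trans_eq ?_
  simp only [Pi.smul_apply, smul_eq_mul, map_mul]
  ring

end Vale.Agent.P011LF
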